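import Vale.Agent.P127W36.Main
import Vale.Agent.P127W36.Sph
import Vale.Agent.P127.U.Lam.Final

open MeasureTheory Metric Vale.Agent.P127 Vale.Agent.P127W36 Vale.Agent.P122W36
open scoped ENNReal

/-- **The Kakeya maximal conjecture in `ℝ ^ 3`**, in the norm form of the problem.
(1) In every dimension the tubes have finite positive volume, and the maximal function of every
`f ∈ L^n` is finite and lower semicontinuous, hence measurable, on the unit sphere.
(2) The measure on `S²` is the induced surface measure, and the normalised two-dimensional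
Hausdorff measure.
(3) The maximal conjecture holds in `ℝ ^ 3`. -/
theorem Vale.Agent.Results.P127.ALiteral.result :
    (∀ (n : ℕ) (δ : ℝ), 1 ≤ n → 0 < δ →
      (∀ (a : E n) (e : sphere (0 : E n) 1),
        0 < volume (tube δ a e) ∧ volume (tube δ a e) < ∞) ∧
      ∀ f : E n → ℂ, MemLp f n volume → (∀ e, K δ f e < ∞) ∧ LowerSemicontinuous (K δ f) ∧
        Measurable (K δ f)) ∧
    (∀ σ : Measure (E 3), (IsSurfaceMeasure (sphere 0 1) σ ↔
        σ = (volume : Measure (E 3)).toSphere.map Subtype.val) ∧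
      (IsSurfaceMeasure (sphere 0 1) σ ↔
        σ = (Measure.euclideanHausdorffMeasure 2).restrict (sphere 0 1))) ∧
    IsSurface (sphere (0 : E 3) 1) ∧
    MaximalConjecture 3 := by
  have hS := (of_posCurved Vale.Agent.P122.FI.posCurved_sphere).1
  refine ⟨fun n δ hn hδ => ⟨fun a e => ⟨volume_tube_pos hδ (norm_eq_of_mem_sphere e),
    volume_tube_lt_top (norm_eq_of_mem_sphere e)⟩, fun f hf =>
      ⟨K_lt_top hn hδ hf, lsc_K hδ hf.1, (lsc_K hδ hf.1).measurable⟩⟩,
    fun σ => ⟨⟨fun h => hS.unique h isSurfaceMeasure_toSphere,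
      fun h => h ▸ isSurfaceMeasure_toSphere⟩,
      ⟨fun h => hS.unique h hS.isSurfaceMeasure, fun h => h ▸ hS.isSurfaceMeasure⟩⟩, hS,
    maximal_of_kmax U.Final.kmax2⟩
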